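import Vale.Agent.P166.Haar2.Statements
import Vale.Agent.P168.Limit.SelfAvg.Gauss
import Vale.Agent.P168.Limit.SelfAvg.Convex

/-!
Difference quotients of a free energy control the fluctuation of the observable.
-/

noncomputable section

open MeasureTheory ProbabilityTheory
open scoped BigOperators

namespace Vale.Agent.P166.Haar2.M5

open Vale.Agent.P168.Limit (logZ gav gw)
open Vale.Agent.P168.Limit.SelfAvg (tangent_le gw_sum gw_nonneg' gav_mono' gav_const' gav_const_mul'
  gav_add' partition_pos)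

variable {X : Type} [Fintype X] [Nonempty X]

/-- Two replicas differ in the observable by at most the second difference of `log Z`. -/
theorem thermal_le (H O : X → ℝ) {h : ℝ} (hh : 0 < h) :
    h * gav H (fun σ => |O σ - gav H O|) ≤
      logZ (fun σ => H σ + h * O σ) + logZ (fun σ => H σ + -h * O σ) - 2 * logZ H + Real.log 2 := by
  set g := gav H O with hg
  have hpt : ∀ σ, Real.exp (h * |O σ - g|) ≤
      Real.exp (h * (O σ - g)) + Real.exp (-(h * (O σ - g))) := by
    intro σ
    rcases abs_choice (O σ - g) with e | e <;> rw [e]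
    · linarith [Real.exp_pos (-(h * (O σ - g)))]
    · rw [mul_neg]
      linarith [Real.exp_pos (h * (O σ - g))]
  have hS : ∑ σ, Real.exp (H σ + h * |O σ - g|) ≤
      Real.exp (-(h * g)) * ∑ σ, Real.exp (H σ + h * O σ) +
        Real.exp (h * g) * ∑ σ, Real.exp (H σ + -h * O σ) := by
    rw [Finset.mul_sum, Finset.mul_sum, ← Finset.sum_add_distrib]
    refine Finset.sum_le_sum fun σ _ => ?_
    rw [Real.exp_add, ← Real.exp_add (-(h * g)), ← Real.exp_add (h * g)]
    refine (mul_le_mul_of_nonneg_left (hpt σ) (Real.exp_pos _).le).trans (le_of_eq ?_)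
    rw [mul_add, ← Real.exp_add, ← Real.exp_add]
    congr 1 <;> congr 1 <;> ring
  have t1 := tangent_le H (fun σ => |O σ - g|) h
  have t2 := tangent_le H O h
  have t3 := tangent_le H O (-h)
  set P := ∑ σ, Real.exp (H σ + h * O σ) with hP
  set M := ∑ σ, Real.exp (H σ + -h * O σ) with hM
  have hP0 : 0 < P := partition_pos _
  have hM0 : 0 < M := partition_pos _
  have hlog : logZ (fun σ => H σ + h * |O σ - g|) ≤
      Real.log (Real.exp (-(h * g)) * P + Real.exp (h * g) * M) :=
    Real.log_le_log (partition_pos _) hS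
  have a0 : 0 ≤ logZ (fun σ => H σ + h * O σ) - logZ H - h * g := by linarith
  have b0 : 0 ≤ logZ (fun σ => H σ + -h * O σ) - logZ H + h * g := by
    rw [← hg] at t3
    linarith
  have hsum : Real.log (Real.exp (-(h * g)) * P + Real.exp (h * g) * M) ≤
      logZ (fun σ => H σ + h * O σ) + logZ (fun σ => H σ + -h * O σ) - logZ H + Real.log 2 := by
    have hP' : Real.exp (-(h * g)) * P =
        Real.exp (logZ (fun σ => H σ + h * O σ) - h * g) := by
      rw [sub_eq_neg_add, Real.exp_add, logZ, Real.exp_log hP0]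
    have hM' : Real.exp (h * g) * M =
        Real.exp (logZ (fun σ => H σ + -h * O σ) + h * g) := by
      rw [add_comm, Real.exp_add, logZ, Real.exp_log hM0]
    refine (Real.log_le_iff_le_exp (by positivity)).2 ?_
    rw [hP', hM', Real.exp_add (logZ (fun σ => H σ + h * O σ) +
      logZ (fun σ => H σ + -h * O σ) - logZ H), Real.exp_log two_pos, mul_two]
    exact add_le_add (Real.exp_le_exp.2 (by linarith)) (Real.exp_le_exp.2 (by linarith))
  linarith

theorem measurable_logZ_add {Ω : Type*} [MeasurableSpace Ω] {H O : Ω → X → ℝ}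
    (hH : ∀ σ, Measurable fun ω => H ω σ) (hO : ∀ σ, Measurable fun ω => O ω σ) (d : ℝ) :
    Measurable fun ω => logZ fun σ => H ω σ + d * O ω σ :=
  (Finset.measurable_sum _ fun σ _ => ((hH σ).add ((hO σ).const_mul d)).exp).log

omit [Nonempty X] in
theorem measurable_gav {Ω : Type*} [MeasurableSpace Ω] {H O : Ω → X → ℝ}
    (hH : ∀ σ, Measurable fun ω => H ω σ) (hO : ∀ σ, Measurable fun ω => O ω σ) :
    Measurable fun ω => gav (H ω) (O ω) :=
  Finset.measurable_sum _ fun σ _ =>
    ((hH σ).exp.div (Finset.measurable_sum _ fun τ _ => (hH τ).exp)).mul (hO σ)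

theorem abs_logZ_le (H : X → ℝ) {c : ℝ} (hc : ∀ σ, |H σ| ≤ c) :
    |logZ H| ≤ |Real.log (Fintype.card X)| + c := by
  have h := Vale.Agent.P168.Limit.SelfAvg.abs_logZ_sub_le' (fun _ : X => (0 : ℝ)) H hc
  have e : logZ (fun _ : X => (0 : ℝ)) = Real.log (Fintype.card X) := by simp [logZ]
  simp only [zero_add, e] at h
  have := abs_sub_abs_le_abs_sub (logZ H) (Real.log (Fintype.card X))
  linarith

/-- M5: `FluctStmt`. -/
theorem _root_.Vale.Agent.P166.Haar2.fluct : FluctStmt := by
  refine ⟨7, ?_⟩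
  intro Ω X _ _ _ μ _ H O b hH hO hb hbd h M φ hh hφ hM hdev
  have ipsi : ∀ d : ℝ, Integrable (fun ω => logZ fun σ => H ω σ + d * O ω σ) μ := fun d => by
    refine ((integrable_const |Real.log (Fintype.card X)|).add (hb.const_mul (1 + |d|))).mono'
      (measurable_logZ_add hH hO d).aestronglyMeasurable (ae_of_all _ fun ω => ?_)
    refine (abs_logZ_le _ fun σ => ?_).trans (le_of_eq rfl)
    refine (abs_add_le _ _).trans ?_
    rw [abs_mul]
    nlinarith [(hbd ω σ).1, mul_le_mul_of_nonneg_left (hbd ω σ).2 (abs_nonneg d)]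
  have e0 : ∀ ω, (fun σ => H ω σ + 0 * O ω σ) = H ω := fun ω => funext fun σ => by ring
  have ipsi0 : Integrable (fun ω => logZ (H ω)) μ := by simpa only [e0] using ipsi 0
  have habs : ∀ ω (f : X → ℝ) (c : ℝ), (∀ σ, |f σ| ≤ c) → |gav (H ω) f| ≤ c :=
    fun ω f c hf => Vale.Agent.P168.Limit.abs_gav_le_of_le (H ω) hf
  have ig : Integrable (fun ω => gav (H ω) (O ω)) μ :=
    hb.mono' (measurable_gav hH hO).aestronglyMeasurable
      (ae_of_all _ fun ω => habs ω _ _ fun σ => (hbd ω σ).2)
  set mm := ∫ ω', gav (H ω') (O ω') ∂μ with hmm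
  set p1 := ∫ ω', logZ (fun σ => H ω' σ + h * O ω' σ) ∂μ with hp1
  set p2 := ∫ ω', logZ (fun σ => H ω' σ + -h * O ω' σ) ∂μ with hp2
  set p0 := ∫ ω', logZ (H ω') ∂μ with hp0
  set D : ℝ → Ω → ℝ := fun d ω => |logZ (fun σ => H ω σ + d * O ω σ) -
      ∫ ω', logZ (fun σ => H ω' σ + d * O ω' σ) ∂μ| with hD
  have iD : ∀ d, Integrable (D d) μ := fun d => ((ipsi d).sub (integrable_const _)).abs
  have hD0 : ∀ ω, D 0 ω = |logZ (H ω) - p0| := fun ω => by simp only [hD, e0, hp0]
  have hup : h * mm ≤ p1 - p0 := by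
    rw [hmm, hp1, hp0, ← integral_const_mul, ← integral_sub (ipsi h) ipsi0]
    exact integral_mono (ig.const_mul h) ((ipsi h).sub ipsi0) fun ω => tangent_le (H ω) (O ω) h
  have hdn : -h * mm ≤ p2 - p0 := by
    rw [hmm, hp2, hp0, ← integral_const_mul, ← integral_sub (ipsi (-h)) ipsi0]
    exact integral_mono (ig.const_mul (-h)) ((ipsi (-h)).sub ipsi0)
      fun ω => tangent_le (H ω) (O ω) (-h)
  have hM0 : 0 ≤ p1 + p2 - 2 * p0 := by linarith
  have hpt : ∀ ω, h * gav (H ω) (fun σ => |O ω σ - mm|) ≤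
      (logZ (fun σ => H ω σ + h * O ω σ) + logZ (fun σ => H ω σ + -h * O ω σ) -
        2 * logZ (H ω)) + (D h ω + D (-h) ω + 2 * D 0 ω) +
        (Real.log 2 + (p1 + p2 - 2 * p0)) := by
    intro ω
    have t := thermal_le (H ω) (O ω) hh
    set g := gav (H ω) (O ω) with hg
    have h1 : gav (H ω) (fun σ => |O ω σ - mm|) ≤ gav (H ω) (fun σ => |O ω σ - g|) + |g - mm| := by
      rw [← gav_const' (H ω) |g - mm|, ← gav_add']
      exact gav_mono' _ fun σ => abs_sub_le _ _ _
    have u1 := tangent_le (H ω) (O ω) h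
    have u2 := tangent_le (H ω) (O ω) (-h)
    rw [← hg] at u1 u2
    have d1 : -D h ω ≤ logZ (fun σ => H ω σ + h * O ω σ) - p1 ∧
        logZ (fun σ => H ω σ + h * O ω σ) - p1 ≤ D h ω := abs_le.1 (le_refl (D h ω))
    have d2 : -D (-h) ω ≤ logZ (fun σ => H ω σ + -h * O ω σ) - p2 ∧
        logZ (fun σ => H ω σ + -h * O ω σ) - p2 ≤ D (-h) ω := abs_le.1 (le_refl (D (-h) ω))
    have d0 := abs_le.1 (le_refl |logZ (H ω) - p0|)
    rw [← hD0] at d0
    have n1 : 0 ≤ D h ω := abs_nonneg _
    have n2 : 0 ≤ D (-h) ω := abs_nonneg _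
    have n0 : 0 ≤ D 0 ω := abs_nonneg _
    have h2 : h * |g - mm| ≤ D h ω + D (-h) ω + 2 * D 0 ω + (p1 + p2 - 2 * p0) := by
      rw [show h * |g - mm| = |h * (g - mm)| by rw [abs_mul, abs_of_pos hh], abs_le]
      constructor <;> rw [mul_sub] <;> linarith
    have := mul_le_mul_of_nonneg_left h1 hh.le
    linarith
  have i1 : Integrable (fun ω => logZ (fun σ => H ω σ + h * O ω σ) +
      logZ (fun σ => H ω σ + -h * O ω σ) - 2 * logZ (H ω)) μ :=
    ((ipsi h).add (ipsi (-h))).sub (ipsi0.const_mul 2)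
  have i2' : Integrable (fun ω => D h ω + D (-h) ω) μ := (iD h).add (iD (-h))
  have i2 : Integrable (fun ω => D h ω + D (-h) ω + 2 * D 0 ω) μ :=
    i2'.add ((iD 0).const_mul 2)
  have i12 : Integrable (fun ω => logZ (fun σ => H ω σ + h * O ω σ) +
      logZ (fun σ => H ω σ + -h * O ω σ) - 2 * logZ (H ω) +
      (D h ω + D (-h) ω + 2 * D 0 ω)) μ := i1.add i2
  have i11 : Integrable (fun ω => logZ (fun σ => H ω σ + h * O ω σ) +
      logZ (fun σ => H ω σ + -h * O ω σ)) μ := (ipsi h).add (ipsi (-h))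
  have iL : Integrable (fun ω => h * gav (H ω) (fun σ => |O ω σ - mm|)) μ := by
    refine Integrable.const_mul ?_ h
    refine (hb.add (integrable_const |mm|)).mono'
      (measurable_gav hH fun σ => ((hO σ).sub_const mm).abs).aestronglyMeasurable
      (ae_of_all _ fun ω => habs ω _ _ fun σ => ?_)
    rw [abs_abs]
    simp only [Pi.add_apply]
    linarith [abs_sub (O ω σ) mm, (hbd ω σ).2]
  have key := integral_mono iL (i12.add (integrable_const (Real.log 2 + (p1 + p2 - 2 * p0)))) hpt
  simp only [Pi.add_apply] at key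
  rw [integral_const_mul, integral_add i12 (integrable_const _), integral_add i1 i2,
    integral_sub i11 (ipsi0.const_mul 2), integral_add (ipsi h) (ipsi (-h)),
    integral_add i2' ((iD 0).const_mul 2), integral_add (iD h) (iD (-h)), integral_const_mul,
    integral_const_mul, integral_const, probReal_univ, one_smul] at key
  have f1 := hdev h (by simp)
  have f2 := hdev (-h) (by simp)
  have f0 := hdev 0 (by simp)
  rw [le_div_iff₀ hh, mul_comm]
  have hl2 : Real.log 2 ≤ 1 := (Real.log_two_lt_d9.trans (by norm_num)).le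
  simp only [hD] at key
  linarith [le_abs_self M, abs_nonneg M]

end Vale.Agent.P166.Haar2.M5
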