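import Vale.Agent.P166.Haar2.Statements
import Vale.Agent.P166.Haar2.Fluct.Fluct
import Vale.Agent.P157.GaussShift

/-!
The perturbation moves the free energy little and monotonically in the strengths.
-/

noncomputable section

open MeasureTheory ProbabilityTheory
open scoped BigOperators

namespace Vale.Agent.P166.Haar2.M5

open Vale.Agent.P157 (gam)
open Vale.Agent.P157.Parisi (Cube)
open Vale.Agent.P168.Limit (logZ)
open Vale.Agent.P168.Limit.SelfAvg (field field_gap)

variable {N G L : ℕ}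

theorem rot_continuous (σ : Cube N) (i : Fin N) : Continuous fun U : OG N => rot U σ i :=
  (continuous_apply i).comp (continuous_act _)

theorem sum_rot_sq (U : OG N) (σ : Cube N) : ∑ i, rot U σ i ^ 2 = N := by
  have h := act_dot U (spin σ) (spin σ)
  rw [spin_dot] at h
  simp only [dotProduct] at h
  simp only [rot, sq]
  exact h

theorem sq_feat_le (P : Sys N G) (hN : 0 < N) (hν : (N : ℝ) ≤ P.ν) (U : OG N) (σ : Cube N)
    (i : Fin L) :
    ∑ v : Word G i.val → Fin N, (P.feat (L := L) U σ ⟨i, v⟩) ^ 2 ≤ 1 := by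
  classical
  have hν0 : 0 < P.ν := lt_of_lt_of_le (by exact_mod_cast hN) hν
  have hbase : ∀ g, ∑ a : Fin N, (if a ∈ P.S g then rot U σ a / Real.sqrt P.ν else 0) ^ 2 ≤ 1 := by
    intro g
    calc ∑ a : Fin N, (if a ∈ P.S g then rot U σ a / Real.sqrt P.ν else 0) ^ 2
        ≤ ∑ a : Fin N, rot U σ a ^ 2 / P.ν := by
          refine Finset.sum_le_sum fun a _ => ?_
          split_ifs
          · rw [div_pow, Real.sq_sqrt hν0.le]
          · rw [zero_pow two_ne_zero]; positivity
      _ ≤ 1 := by rw [← Finset.sum_div, sum_rot_sq, div_le_one hν0]; exact hν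
  simp only [Sys.feat, ← Finset.prod_pow]
  rw [← Fintype.prod_sum (fun (p : Word G i.val) (a : Fin N) =>
    (if a ∈ P.S p.1 then rot U σ a / Real.sqrt P.ν else 0) ^ 2)]
  exact Finset.prod_le_one (fun p _ => Finset.sum_nonneg fun a _ => sq_nonneg _) fun p _ => hbase p.1

theorem abs_feat_le (P : Sys N G) (hN : 0 < N) (hν : (N : ℝ) ≤ P.ν) (U : OG N) (σ : Cube N)
    (c : PIdx G N L) : |P.feat U σ c| ≤ 1 := by
  obtain ⟨i, v⟩ := c
  have h := (Finset.single_le_sum (f := fun w => (P.feat (L := L) U σ ⟨i, w⟩) ^ 2)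
    (fun w _ => sq_nonneg _) (Finset.mem_univ v)).trans (sq_feat_le P hN hν U σ i)
  exact abs_le_one_iff_mul_self_le_one.2 (by rw [← sq]; exact h)

/-- The coefficient of a coordinate of the perturbation. -/
def pcoef (P : Sys N G) (s : ℝ) (x : Fin L → ℝ) (U : OG N) (σ : Cube N) (c : PIdx G N L) : ℝ :=
  s * x c.1 * coef G c.1.val * P.feat U σ c

theorem ham_eq (P : Sys N G) (s : ℝ) (x : Fin L → ℝ) (B : RBase N) (z : Dz G L B) (σ : Cube N) :
    P.ham s x B z σ = (B.lw z.2.2 σ + 1 / 2 * (∑ i, P.lam i * rot z.1 σ i ^ 2)) +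
      field (pcoef P s x z.1) z.2.1 σ := by
  simp only [Sys.ham, Sys.ham0, Sys.pert, field, pcoef, mul_comm (z.2.1 _), add_assoc]

theorem measurable_ham (P : Sys N G) (s : ℝ) (x : Fin L → ℝ) (B : RBase N) (σ : Cube N) :
    Measurable fun z : Dz G L B => P.ham s x B z σ := by
  have hr : ∀ i, Measurable fun z : Dz G L B => rot z.1 σ i := fun i =>
    (rot_continuous σ i).measurable.comp measurable_fst
  refine ((B.meas σ).comp (measurable_snd.comp measurable_snd)).add ?_
  refine ((Finset.measurable_sum _ fun i _ => ((hr i).pow_const 2).const_mul _).const_mul _).add ?_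
  refine Finset.measurable_sum _ fun c _ => ?_
  refine ((measurable_pi_apply c).comp (measurable_fst.comp measurable_snd)).mul ?_
  refine Measurable.const_mul ?_ _
  refine Finset.measurable_prod _ fun p _ => ?_
  split_ifs
  · exact (hr _).div_const _
  · exact measurable_const

instance dzLaw_prob (B : RBase N) : IsProbabilityMeasure (dzLaw G L B) := by
  unfold dzLaw; infer_instance

theorem integrable_logZ_ham (P : Sys N G) (hN : 0 < N) (hν : (N : ℝ) ≤ P.ν) (s : ℝ)
    (x : Fin L → ℝ) (B : RBase N) :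
    Integrable (fun z => logZ (P.ham s x B z)) (dzLaw G L B) := by
  set c0 : ℝ := |Real.log (Fintype.card (Cube N))| + (B.bd + 1 / 2 * ((∑ i, |P.lam i|) * N))
  have hJ : ∀ c : PIdx G N L, Integrable (fun z : Dz G L B =>
      |s * x c.1 * coef G c.1.val| * |z.2.1 c|) (dzLaw G L B) := fun c =>
    ((((measurePreserving_eval (fun _ : PIdx G N L => gaussianReal 0 1) c).integrable_comp_of_integrable
      Vale.Agent.P168.Toolkit.integrable_gauss_id).abs.comp_fst B.law).comp_snd
        (orthHaar N)).const_mul _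
  refine ((integrable_const c0).add (integrable_finsetSum Finset.univ fun c _ => hJ c)).mono'
    (Finset.measurable_sum _ fun σ _ => (measurable_ham P s x B σ).exp).log.aestronglyMeasurable
    (ae_of_all _ fun z => ?_)
  refine (abs_logZ_le (P.ham s x B z) (c := (B.bd + 1 / 2 * ((∑ i, |P.lam i|) * N)) +
    ∑ c : PIdx G N L, |s * x c.1 * coef G c.1.val| * |z.2.1 c|) fun σ => ?_).trans_eq ?_
  · rw [ham_eq]
    refine (abs_add_le _ _).trans (add_le_add ((abs_add_le _ _).trans (add_le_add (B.le_bd _ _) ?_)) ?_)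
    · rw [abs_mul, abs_of_nonneg (by norm_num : (0 : ℝ) ≤ 1 / 2)]
      refine mul_le_mul_of_nonneg_left ((Finset.abs_sum_le_sum_abs _ _).trans ?_) (by norm_num)
      rw [Finset.sum_mul]
      refine Finset.sum_le_sum fun i _ => ?_
      rw [abs_mul, abs_sq]
      refine mul_le_mul_of_nonneg_left ?_ (abs_nonneg _)
      exact (Finset.single_le_sum (f := fun j => rot z.1 σ j ^ 2) (fun j _ => sq_nonneg _)
        (Finset.mem_univ i)).trans_eq (sum_rot_sq _ _)
    · refine (Finset.abs_sum_le_sum_abs _ _).trans (Finset.sum_le_sum fun c _ => ?_)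
      rw [pcoef, abs_mul, abs_mul (s * x c.1 * coef G c.1.val)]
      exact mul_le_mul_of_nonneg_right (mul_le_of_le_one_right (abs_nonneg _)
        (abs_feat_le P hN hν _ _ _)) (abs_nonneg _)
  · simp only [Pi.add_apply, c0]
    ring

theorem free_eq (P : Sys N G) (hN : 0 < N) (hν : (N : ℝ) ≤ P.ν) (s : ℝ) (x : Fin L → ℝ)
    (B : RBase N) :
    P.free s x B = ∫ U, ∫ ω, ∫ J, logZ (fun σ => (B.lw ω σ +
        1 / 2 * (∑ i, P.lam i * rot U σ i ^ 2)) + field (pcoef P s x U) J σ)
      ∂gam (PIdx G N L) ∂B.law ∂orthHaar N ∧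
    Integrable (fun p : OG N × B.Ω => ∫ J, logZ (fun σ => (B.lw p.2 σ +
        1 / 2 * (∑ i, P.lam i * rot p.1 σ i ^ 2)) + field (pcoef P s x p.1) J σ)
      ∂gam (PIdx G N L)) ((orthHaar N).prod B.law) := by
  set F : Dz G L B → ℝ := fun z => logZ (P.ham s x B z) with hF
  have hi : Integrable F (dzLaw G L B) := integrable_logZ_ham P hN hν s x B
  have e : ∀ U ω J, logZ (fun σ => (B.lw ω σ + 1 / 2 * (∑ i, P.lam i * rot U σ i ^ 2)) +
      field (pcoef P s x U) J σ) = F (U, J, ω) := fun U ω J => by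
    simp only [hF]
    exact congrArg logZ (funext fun σ => (ham_eq P s x B (U, J, ω) σ).symm)
  simp only [e]
  have hsw : MeasurePreserving (fun p : (OG N × B.Ω) × (PIdx G N L → ℝ) => (p.1.1, (p.2, p.1.2)))
      (((orthHaar N).prod B.law).prod (gam (PIdx G N L))) (dzLaw G L B) :=
    ((MeasurePreserving.id (orthHaar N)).prod Measure.measurePreserving_swap).comp
      (measurePreserving_prodAssoc _ _ _)
  have hi' : Integrable (fun p : (OG N × B.Ω) × (PIdx G N L → ℝ) => F (p.1.1, (p.2, p.1.2)))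
      (((orthHaar N).prod B.law).prod (gam (PIdx G N L))) := hsw.integrable_comp_of_integrable hi
  refine ⟨?_, hi'.integral_prod_left⟩
  have h1 : P.free s x B = ∫ p, F (p.1.1, (p.2, p.1.2))
      ∂(((orthHaar N).prod B.law).prod (gam (PIdx G N L))) := by
    have h := integral_map (μ := ((orthHaar N).prod B.law).prod (gam (PIdx G N L)))
      hsw.measurable.aemeasurable (f := F) (by rw [hsw.map_eq]; exact hi.aestronglyMeasurable)
    rw [hsw.map_eq] at h
    exact h
  rw [h1, integral_prod _ hi', integral_prod _ hi'.integral_prod_left]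

/-- Independent increments: larger strengths raise the free energy, by at most half the variance. -/
theorem field_increase {X ι : Type} [Fintype X] [Nonempty X] [Fintype ι] (A : X → ℝ)
    (ψ : X → ι → ℝ) (u u' : ι → ℝ) (hu : ∀ c, |u c| ≤ |u' c|) {v : ℝ}
    (hv : ∀ σ, ∑ c, (u' c ^ 2 - u c ^ 2) * ψ σ c ^ 2 ≤ v) :
    (∫ z, logZ (fun σ => A σ + field (fun τ c => u c * ψ τ c) z σ) ∂gam ι) ≤
        ∫ z, logZ (fun σ => A σ + field (fun τ c => u' c * ψ τ c) z σ) ∂gam ι ∧
      (∫ z, logZ (fun σ => A σ + field (fun τ c => u' c * ψ τ c) z σ) ∂gam ι) ≤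
        (∫ z, logZ (fun σ => A σ + field (fun τ c => u c * ψ τ c) z σ) ∂gam ι) + v / 2 := by
  classical
  set a : ι → ℝ := fun c => if u' c = 0 then 1 else u c / u' c with ha
  have hsq : ∀ c, u c ^ 2 ≤ u' c ^ 2 := fun c => sq_le_sq.2 (hu c)
  have ha1 : ∀ c, a c ^ 2 ≤ 1 := fun c => by
    simp only [ha]
    split_ifs with h
    · norm_num
    · rw [div_pow, div_le_one (by positivity)]; exact hsq c
  set b : ι → ℝ := fun c => Real.sqrt (1 - a c ^ 2) with hb
  have hb2 : ∀ c, b c ^ 2 = 1 - a c ^ 2 := fun c => Real.sq_sqrt (by linarith [ha1 c])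
  have hau : ∀ c, u' c * a c = u c := fun c => by
    simp only [ha]
    split_ifs with h
    · have := hsq c
      rw [h, zero_pow two_ne_zero] at this
      rw [h, zero_mul, pow_eq_zero_iff two_ne_zero |>.1 (le_antisymm this (sq_nonneg _))]
    · field_simp
  have hbu : ∀ c, (u' c * b c) ^ 2 = u' c ^ 2 - u c ^ 2 := fun c => by
    rw [mul_pow, hb2, ← hau c]; ring
  have hone : ∀ c, MeasurePreserving (fun p : ℝ × ℝ => a c * p.1 + b c * p.2)
      ((gaussianReal 0 1).prod (gaussianReal 0 1)) (gaussianReal 0 1) := fun c =>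
    ⟨by fun_prop, by
      rw [Vale.Agent.P157.map_combine, hb2, show a c ^ 2 + (1 - a c ^ 2) = 1 by ring, Real.sqrt_one]
      simp⟩
  have hmp : MeasurePreserving (fun p : (ι → ℝ) × (ι → ℝ) => fun c => a c * p.1 c + b c * p.2 c)
      ((gam ι).prod (gam ι)) (gam ι) :=
    (measurePreserving_pi (fun _ : ι => (gaussianReal 0 1).prod (gaussianReal 0 1))
      (fun _ : ι => gaussianReal 0 1) hone).comp
      ((measurePreserving_arrowProdEquivProdArrow ℝ ℝ ι (fun _ => gaussianReal 0 1)
        (fun _ => gaussianReal 0 1)).symm)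
  set F : (ι → ℝ) → ℝ := fun z => logZ (fun σ => A σ + field (fun τ c => u' c * ψ τ c) z σ) with hF
  have iF : Integrable F (gam ι) :=
    Vale.Agent.P168.Limit.SelfAvg.integrable_logZ_field A _
  have iF' := hmp.integrable_comp_of_integrable iF
  have e : ∀ p : (ι → ℝ) × (ι → ℝ), F (fun c => a c * p.1 c + b c * p.2 c) =
      logZ (fun σ => (A σ + field (fun τ c => u c * ψ τ c) p.1 σ) +
        field (fun τ c => u' c * b c * ψ τ c) p.2 σ) := fun p => by
    simp only [hF, field]
    congr 1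
    funext σ
    rw [add_assoc, ← Finset.sum_add_distrib]
    congr 1
    refine Finset.sum_congr rfl fun c _ => ?_
    rw [← hau c]
    ring
  have hint : ∫ z, F z ∂gam ι =
      ∫ z, ∫ w, logZ (fun σ => (A σ + field (fun τ c => u c * ψ τ c) z σ) +
        field (fun τ c => u' c * b c * ψ τ c) w σ) ∂gam ι ∂gam ι := by
    rw [← hmp.map_eq, integral_map hmp.measurable.aemeasurable
      (by rw [hmp.map_eq]; exact iF.aestronglyMeasurable)]
    rw [hmp.map_eq] at *
    refine (integral_prod _ iF').trans ?_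
    exact integral_congr_ae (ae_of_all _ fun z => integral_congr_ae (ae_of_all _ fun w => e (z, w)))
  have hg := fun z : ι → ℝ => field_gap (fun σ => A σ + field (fun τ c => u c * ψ τ c) z σ)
    (fun τ c => u' c * b c * ψ τ c) (v := v) fun σ => by
      refine (le_of_eq (Finset.sum_congr rfl fun c _ => ?_)).trans (hv σ)
      rw [mul_pow, hbu]
  have i1 : Integrable (fun z => logZ fun σ => A σ + field (fun τ c => u c * ψ τ c) z σ) (gam ι) :=
    Vale.Agent.P168.Limit.SelfAvg.integrable_logZ_field A _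
  have i2 : Integrable (fun z => ∫ w, logZ (fun σ => (A σ + field (fun τ c => u c * ψ τ c) z σ) +
      field (fun τ c => u' c * b c * ψ τ c) w σ) ∂gam ι) (gam ι) :=
    iF'.integral_prod_left.congr
      (ae_of_all _ fun z => integral_congr_ae (ae_of_all _ fun w => e (z, w)))
  rw [show (∫ z, logZ (fun σ => A σ + field (fun τ c => u' c * ψ τ c) z σ) ∂gam ι) =
    ∫ z, F z ∂gam ι from rfl, hint]
  constructor
  · exact integral_mono i1 i2 fun z => (hg z).1
  · refine (integral_mono i2 (i1.add (integrable_const (v / 2))) fun z => (hg z).2).trans_eq ?_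
    simp only [Pi.add_apply]
    rw [integral_add i1 (integrable_const _)]
    simp

theorem free_increase (P : Sys N G) (hN : 0 < N) (hν : (N : ℝ) ≤ P.ν) (s : ℝ) (B : RBase N)
    {x x' : Fin L → ℝ} (hx : ∀ i, |x i| ≤ |x' i|) :
    P.free s x B ≤ P.free s x' B ∧
      P.free s x' B ≤ P.free s x B +
        s ^ 2 / 2 * ∑ i : Fin L, coef G i.val ^ 2 * (x' i ^ 2 - x i ^ 2) := by
  obtain ⟨e, ie⟩ := free_eq P hN hν s x B
  obtain ⟨e', ie'⟩ := free_eq P hN hν s x' B
  set v := s ^ 2 * ∑ i : Fin L, coef G i.val ^ 2 * (x' i ^ 2 - x i ^ 2) with hv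
  have hkey : ∀ (U : OG N) (ω : B.Ω),
      (∫ J, logZ (fun σ => (B.lw ω σ + 1 / 2 * (∑ i, P.lam i * rot U σ i ^ 2)) +
          field (pcoef P s x U) J σ) ∂gam (PIdx G N L)) ≤
        (∫ J, logZ (fun σ => (B.lw ω σ + 1 / 2 * (∑ i, P.lam i * rot U σ i ^ 2)) +
          field (pcoef P s x' U) J σ) ∂gam (PIdx G N L)) ∧
      (∫ J, logZ (fun σ => (B.lw ω σ + 1 / 2 * (∑ i, P.lam i * rot U σ i ^ 2)) +
          field (pcoef P s x' U) J σ) ∂gam (PIdx G N L)) ≤
        (∫ J, logZ (fun σ => (B.lw ω σ + 1 / 2 * (∑ i, P.lam i * rot U σ i ^ 2)) +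
          field (pcoef P s x U) J σ) ∂gam (PIdx G N L)) + v / 2 := by
    intro U ω
    refine field_increase (fun σ => B.lw ω σ + 1 / 2 * (∑ i, P.lam i * rot U σ i ^ 2))
      (fun σ c => P.feat U σ c) (fun c => s * x c.1 * coef G c.1.val)
      (fun c => s * x' c.1 * coef G c.1.val)
      (fun c => by
        simp only [abs_mul]
        exact mul_le_mul_of_nonneg_right (mul_le_mul_of_nonneg_left (hx c.1) (abs_nonneg s))
          (abs_nonneg _)) fun σ => ?_
    rw [Fintype.sum_sigma, hv, Finset.mul_sum]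
    refine Finset.sum_le_sum fun i _ => ?_
    dsimp only
    rw [← Finset.mul_sum]
    refine (mul_le_mul_of_nonneg_left (sq_feat_le P hN hν U σ i) ?_).trans_eq ?_
    · have := mul_le_mul_of_nonneg_left (sq_le_sq.2 (hx i)) (sq_nonneg (s * coef G i.val))
      nlinarith
    · ring
  rw [e, e', ← integral_prod _ ie, ← integral_prod _ ie']
  constructor
  · exact integral_mono ie ie' fun p => (hkey p.1 p.2).1
  · refine (integral_mono ie' (ie.add (integrable_const (v / 2))) fun p => (hkey p.1 p.2).2).trans_eq ?_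
    simp only [Pi.add_apply]
    rw [integral_add ie (integrable_const _), integral_const, probReal_univ, one_smul, hv]
    ring

/-- M5: `PertShapeStmt`. -/
theorem _root_.Vale.Agent.P166.Haar2.pertShape : PertShapeStmt := by
  intro G N L P hN hν s B
  refine ⟨fun x => ?_, fun x x' hx => free_increase P hN hν s B hx⟩
  obtain ⟨h1, h2⟩ := free_increase P hN hν s B (x := fun _ : Fin L => 0) (x' := x)
    (fun i => by simp)
  refine ⟨h1, h2.trans_eq ?_⟩
  congr 2
  exact Finset.sum_congr rfl fun i _ => by ring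

end Vale.Agent.P166.Haar2.M5
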