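import Vale.Agent.P166.Haar2.Statements
import Vale.Agent.P168.Limit.Toolkit

/-!
The expansion of the mean logarithm of a damped Gaussian tilt.
-/

noncomputable section

open MeasureTheory ProbabilityTheory
open scoped BigOperators

namespace Vale.Agent.P166.Haar2.M5

open Vale.Agent.P157 (gam)
open Vale.Agent.P168.Toolkit

/-- The damped tilt. -/
def tilt (a : ℝ) : ℝ := Real.exp (a - a ^ 2 / 2)

theorem tilt_le_two (a : ℝ) : tilt a ≤ 7 / 4 := by
  refine le_trans (Real.exp_le_exp.2 (show a - a ^ 2 / 2 ≤ 1 / 2 by nlinarith [sq_nonneg (a - 1)])) ?_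
  have h : Real.exp (1 / 2) ^ 2 = Real.exp 1 := by rw [← Real.exp_nat_mul]; norm_num
  nlinarith [Real.exp_one_lt_d9, Real.exp_pos (1 / 2 : ℝ)]

theorem abs_tilt_rem (a : ℝ) : |tilt a - 1 - a| ≤ 40 * |a| ^ 3 := by
  rcases le_or_gt |a| (1 / 2) with h | h
  · set x := a - a ^ 2 / 2 with hx
    have ha := abs_nonneg a
    have hx1 : |x| ≤ 5 / 4 * |a| := by
      refine (abs_sub _ _).trans ?_
      rw [abs_of_nonneg (show 0 ≤ a ^ 2 / 2 by positivity), ← sq_abs a]
      nlinarith
    have hx2 : |x| ≤ 1 := by linarith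
    have h3 := Real.exp_bound hx2 (n := 3) (by norm_num)
    simp only [Finset.sum_range_succ, Finset.sum_range_zero, Nat.factorial] at h3
    norm_num at h3
    have hpow : |x| ^ 3 ≤ 2 * |a| ^ 3 := by
      refine (pow_le_pow_left₀ (abs_nonneg x) hx1 3).trans ?_
      nlinarith [pow_nonneg ha 3]
    have hr : tilt a - 1 - a =
        (Real.exp x - (1 + x + x ^ 2 / 2)) + (-(a ^ 3 / 2) + a ^ 4 / 8) := by
      rw [tilt, ← hx]; rw [hx]; ring
    rw [hr]
    refine (abs_add_le _ _).trans ?_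
    have h4 : |-(a ^ 3 / 2) + a ^ 4 / 8| ≤ |a| ^ 3 := by
      refine (abs_add_le _ _).trans ?_
      rw [abs_neg, abs_div, abs_div, abs_pow, abs_pow, show |(2 : ℝ)| = 2 by norm_num,
        show |(8 : ℝ)| = 8 by norm_num, pow_succ |a| 3]
      nlinarith [pow_nonneg ha 3]
    nlinarith [pow_nonneg ha 3]
  · have h1 := tilt_le_two a
    have h2 : 0 < tilt a := Real.exp_pos _
    have h3 : |tilt a - 1 - a| ≤ 2 + |a| := by
      rw [abs_le]
      constructor <;> linarith [le_abs_self a, neg_abs_le a]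
    have h4 : (1 / 8 : ℝ) ≤ |a| ^ 3 := le_trans (by norm_num) (pow_le_pow_left₀ (by norm_num) h.le 3)
    have h5 : |a| ≤ 4 * |a| ^ 3 := by
      nlinarith [mul_nonneg (abs_nonneg a) (sub_nonneg.2 (pow_le_pow_left₀ (by norm_num) h.le 2))]
    linarith

theorem abs_tilt_sub_one (a : ℝ) : |tilt a - 1| ≤ 11 * |a| := by
  rcases le_or_gt |a| (1 / 2) with h | h
  · have h1 := abs_tilt_rem a
    have h2 : |tilt a - 1| ≤ |tilt a - 1 - a| + |a| := by
      have := abs_add_le (tilt a - 1 - a) a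
      rwa [sub_add_cancel] at this
    have h3 := mul_le_mul_of_nonneg_left (pow_le_pow_left₀ (abs_nonneg a) h 2) (abs_nonneg a)
    nlinarith
  · have h1 := tilt_le_two a
    have h2 : 0 < tilt a := Real.exp_pos _
    rw [abs_le]
    constructor <;> linarith

variable {X : Type} [Fintype X]

theorem cube_mul_le (a b : ℝ) : |a| ^ 3 * |b| ≤ a ^ 4 + b ^ 4 := by
  have e : ∀ t : ℝ, t ^ 4 = |t| ^ 4 := fun t => by
    rw [show (4 : ℕ) = 2 * 2 from rfl, pow_mul, pow_mul, sq_abs]
  rw [e a, e b]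
  have ha := abs_nonneg a
  have hb := abs_nonneg b
  rcases le_total |b| |a| with h | h
  · nlinarith [mul_le_mul_of_nonneg_left h (pow_nonneg ha 3), pow_nonneg hb 4]
  · nlinarith [mul_le_mul_of_nonneg_right (pow_le_pow_left₀ ha h 3) hb, pow_nonneg ha 4]

theorem weighted_cube_mul (w a : X → ℝ) (hw : ∀ σ, 0 ≤ w σ) (h1 : ∑ σ, w σ = 1) :
    (∑ σ, w σ * |a σ| ^ 3) * ∑ σ, w σ * |a σ| ≤ 2 * ∑ σ, w σ * a σ ^ 4 := by
  rw [Finset.sum_mul_sum]
  calc ∑ σ, ∑ τ, w σ * |a σ| ^ 3 * (w τ * |a τ|)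
      ≤ ∑ σ, ∑ τ, (w σ * a σ ^ 4 * w τ + w σ * (w τ * a τ ^ 4)) := by
        refine Finset.sum_le_sum fun σ _ => Finset.sum_le_sum fun τ _ => ?_
        have := mul_le_mul_of_nonneg_left (cube_mul_le (a σ) (a τ)) (mul_nonneg (hw σ) (hw τ))
        nlinarith
    _ = 2 * ∑ σ, w σ * a σ ^ 4 := by
        simp only [Finset.sum_add_distrib, ← Finset.mul_sum, h1, mul_one, ← Finset.sum_mul, one_mul]
        ring

theorem log_one_add_rem {y : ℝ} (h1 : -(1 / 2) ≤ y) (h2 : y ≤ 3 / 4) :
    |Real.log (1 + y) - y + y ^ 2 / 2| ≤ 4 * |y| ^ 3 := by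
  have hy : |-y| < 1 := by rw [abs_neg, abs_lt]; constructor <;> linarith
  have h := Real.abs_log_sub_add_sum_range_le hy 2
  rw [sub_neg_eq_add, abs_neg] at h
  simp only [Finset.sum_range_succ, Finset.sum_range_zero] at h
  norm_num at h
  rw [show Real.log (1 + y) - y + y ^ 2 / 2 = -y + y ^ 2 / 2 + Real.log (1 + y) by ring]
  have hy4 : |y| ≤ 3 / 4 := abs_le.2 ⟨by linarith, h2⟩
  refine h.trans ?_
  rw [div_le_iff₀ (by linarith)]
  nlinarith [mul_le_mul_of_nonneg_left hy4 (pow_nonneg (abs_nonneg y) 3),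
    pow_nonneg (abs_nonneg y) 3]

/-- The pointwise expansion. -/
theorem tilt_expansion (w a : X → ℝ) (hw : ∀ σ, 0 ≤ w σ) (h1 : ∑ σ, w σ = 1) :
    |Real.log (∑ σ, w σ * tilt (a σ)) - (∑ σ, w σ * a σ) + (∑ σ, w σ * a σ) ^ 2 / 2| ≤
      30000 * ∑ σ, w σ * (|a σ| ^ 3 + a σ ^ 4) := by
  set T := ∑ σ, w σ * tilt (a σ) with hT
  set L := ∑ σ, w σ * a σ with hL
  set S1 := ∑ σ, w σ * |a σ| with hS1
  set S2 := ∑ σ, w σ * a σ ^ 2 with hS2
  set S3 := ∑ σ, w σ * |a σ| ^ 3 with hS3
  set S4 := ∑ σ, w σ * a σ ^ 4 with hS4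
  have h4n : ∀ t : ℝ, 0 ≤ t ^ 4 := fun t => by positivity
  have hS10 : 0 ≤ S1 := Finset.sum_nonneg fun σ _ => mul_nonneg (hw σ) (abs_nonneg _)
  have hS20 : 0 ≤ S2 := Finset.sum_nonneg fun σ _ => mul_nonneg (hw σ) (sq_nonneg _)
  have hS30 : 0 ≤ S3 := Finset.sum_nonneg fun σ _ => mul_nonneg (hw σ) (by positivity)
  have hS40 : 0 ≤ S4 := Finset.sum_nonneg fun σ _ => mul_nonneg (hw σ) (h4n _)
  have hRHS : ∑ σ, w σ * (|a σ| ^ 3 + a σ ^ 4) = S3 + S4 := by
    rw [hS3, hS4, ← Finset.sum_add_distrib]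
    exact Finset.sum_congr rfl fun σ _ => by ring
  rw [hRHS]
  have hR : |T - 1 - L| ≤ 40 * S3 := by
    have e : T - 1 - L = ∑ σ, w σ * (tilt (a σ) - 1 - a σ) := by
      simp only [hT, hL, mul_sub, Finset.sum_sub_distrib, mul_one, h1]
    rw [e, hS3, Finset.mul_sum]
    refine (Finset.abs_sum_le_sum_abs _ _).trans (Finset.sum_le_sum fun σ _ => ?_)
    rw [abs_mul, abs_of_nonneg (hw σ), mul_left_comm]
    exact mul_le_mul_of_nonneg_left (abs_tilt_rem _) (hw σ)
  have hY1 : |T - 1| ≤ 11 * S1 := by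
    have e : T - 1 = ∑ σ, w σ * (tilt (a σ) - 1) := by
      simp only [hT, mul_sub, Finset.sum_sub_distrib, mul_one, h1]
    rw [e, hS1, Finset.mul_sum]
    refine (Finset.abs_sum_le_sum_abs _ _).trans (Finset.sum_le_sum fun σ _ => ?_)
    rw [abs_mul, abs_of_nonneg (hw σ), mul_left_comm]
    exact mul_le_mul_of_nonneg_left (abs_tilt_sub_one _) (hw σ)
  have hL1 : |L| ≤ S1 := by
    refine (Finset.abs_sum_le_sum_abs _ _).trans (le_of_eq ?_)
    exact Finset.sum_congr rfl fun σ _ => by rw [abs_mul, abs_of_nonneg (hw σ)]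
  have hT2 : T ≤ 7 / 4 := by
    refine (Finset.sum_le_sum fun σ _ => mul_le_mul_of_nonneg_left (tilt_le_two (a σ)) (hw σ)).trans_eq ?_
    rw [← Finset.sum_mul, h1, one_mul]
  -- powers of the first moment
  have hcs : ∀ f : X → ℝ, (∀ σ, 0 ≤ f σ) → (∑ σ, w σ * f σ) ^ 2 ≤ ∑ σ, w σ * f σ ^ 2 := by
    intro f _
    have h := Finset.sum_mul_sq_le_sq_mul_sq Finset.univ (fun σ => Real.sqrt (w σ))
      (fun σ => Real.sqrt (w σ) * f σ)
    simp only [← mul_assoc, Real.mul_self_sqrt (hw _), mul_pow, Real.sq_sqrt (hw _), h1, one_mul] at h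
    exact h
  have h12 : S1 ^ 2 ≤ S2 := by
    refine (hcs _ fun σ => abs_nonneg _).trans (le_of_eq ?_)
    exact Finset.sum_congr rfl fun σ _ => by rw [sq_abs]
  have h24 : S2 ^ 2 ≤ S4 := by
    refine (hcs _ fun σ => sq_nonneg _).trans (le_of_eq ?_)
    exact Finset.sum_congr rfl fun σ _ => by ring
  have h13 : S1 ^ 3 ≤ S3 := by
    rw [hS1, hS3]
    simpa only using Real.pow_arith_mean_le_arith_mean_pow Finset.univ w (fun σ => |a σ|)
      (fun σ _ => hw σ) h1 (fun σ _ => abs_nonneg _) 3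
  have hS31 : S3 * S1 ≤ 2 * S4 := weighted_cube_mul w a hw h1
  -- the logarithm against the second order polynomial
  have hlog : |Real.log T - (T - 1) + (T - 1) ^ 2 / 2| ≤ 20000 * (S3 + S4) := by
    rcases le_or_gt (-(1 / 2)) (T - 1) with hy | hy
    · have h := log_one_add_rem hy (by linarith)
      rw [add_sub_cancel] at h
      have := pow_le_pow_left₀ (abs_nonneg _) hY1 3
      rw [mul_pow] at this
      nlinarith
    · have hTpos : 0 < T := by
        obtain ⟨σ, -, hσ⟩ : ∃ σ ∈ Finset.univ, 0 < w σ := by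
          by_contra hne
          push Not at hne
          linarith [Finset.sum_nonpos hne, h1]
        exact lt_of_lt_of_le (mul_pos hσ (Real.exp_pos _)) (Finset.single_le_sum
          (f := fun τ => w τ * tilt (a τ)) (fun τ _ => mul_nonneg (hw τ) (Real.exp_pos _).le)
          (Finset.mem_univ σ))
      have hl : -(S1 + S2) ≤ Real.log T := by
        rw [Real.le_log_iff_exp_le hTpos]
        have hconv := convexOn_exp.map_sum_le (t := Finset.univ) (w := w)
          (p := fun σ => a σ - a σ ^ 2 / 2) (fun σ _ => hw σ) h1 fun σ _ => Set.mem_univ _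
        refine le_trans (Real.exp_le_exp.2 ?_) hconv
        rw [hS1, hS2, ← Finset.sum_add_distrib, ← Finset.sum_neg_distrib]
        refine Finset.sum_le_sum fun σ _ => ?_
        rw [smul_eq_mul]
        nlinarith [mul_le_mul_of_nonneg_left (neg_abs_le (a σ)) (hw σ),
          mul_nonneg (hw σ) (sq_nonneg (a σ))]
      have hl2 : Real.log T ≤ 0 := Real.log_nonpos hTpos.le (by linarith)
      have hu : (1 / 2 : ℝ) ≤ |T - 1| := by rw [abs_of_neg (by linarith)]; linarith
      have hu2 : 1 / 4 ≤ (11 * S1) ^ 2 :=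
        le_trans (by norm_num) (pow_le_pow_left₀ (by norm_num) (hu.trans hY1) 2)
      have hab : |Real.log T - (T - 1) + (T - 1) ^ 2 / 2| ≤ S1 + S2 + (11 * S1) + (11 * S1) := by
        have hsq : (T - 1) ^ 2 / 2 ≤ |T - 1| := by
          rw [abs_of_neg (show T - 1 < 0 by linarith)]
          nlinarith
        have hY := abs_le.1 hY1
        rw [abs_le]
        constructor <;> linarith [sq_nonneg (T - 1), abs_le.1 (le_refl |T - 1|)]
      refine hab.trans ?_
      have := mul_le_mul_of_nonneg_left hu2 (show 0 ≤ S1 + S2 + 11 * S1 + 11 * S1 by positivity)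
      nlinarith [mul_le_mul_of_nonneg_left h12 hS20, mul_nonneg hS20 hS10]
  have hdiff : |(T - 1) ^ 2 - L ^ 2| ≤ 960 * S4 := by
    rw [show (T - 1) ^ 2 - L ^ 2 = (T - 1 - L) * (T - 1 + L) by ring, abs_mul]
    have : |T - 1 + L| ≤ 12 * S1 := (abs_add_le _ _).trans (by linarith)
    refine (mul_le_mul hR this (abs_nonneg _) (by positivity)).trans ?_
    nlinarith
  have e1 := abs_le.1 hlog
  have e2 := abs_le.1 hR
  have e3 := abs_le.1 hdiff
  rw [abs_le]
  constructor <;> linarith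

variable {ι : Type} [Fintype ι]

theorem integral_coord_mul (i j : ι) [DecidableEq ι] :
    ∫ g, g i * g j ∂gam ι = if i = j then 1 else 0 := by
  split_ifs with h
  · subst h
    have h2 := integral_map (μ := gam ι) (φ := Function.eval i) (measurable_pi_apply i).aemeasurable
      (f := fun t : ℝ => t ^ 2) (by fun_prop)
    rw [(measurePreserving_eval (fun _ : ι => gaussianReal 0 1) i).map_eq, integral_gauss_sq] at h2
    simpa only [Function.eval, sq] using h2.symm
  · have e : ∀ g : ι → ℝ, g i * g j = ∏ k, if k = i ∨ k = j then g k else 1 := by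
      intro g
      rw [← Finset.prod_filter, show Finset.univ.filter (fun k => k = i ∨ k = j) = {i, j} by
        ext k; simp, Finset.prod_pair h]
    simp only [e]
    rw [integral_fintype_prod_eq_prod (fun k x => if k = i ∨ k = j then x else 1)]
    refine Finset.prod_eq_zero (Finset.mem_univ i) ?_
    simp [integral_gauss_id]

theorem integrable_coord_mul (i j : ι) : Integrable (fun g => g i * g j) (gam ι) := by
  have h : ∀ k, Integrable (fun g : ι → ℝ => g k ^ 2) (gam ι) := fun k =>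
    (measurePreserving_eval (fun _ : ι => gauss) k).integrable_comp_of_integrable integrable_gauss_sq
  refine ((h i).add (h j)).mono' (by fun_prop) (ae_of_all _ fun g => ?_)
  rw [Real.norm_eq_abs, abs_mul]
  simp only [Pi.add_apply]
  nlinarith [sq_abs (g i), sq_abs (g j), sq_nonneg (|g i| - |g j|), sq_nonneg (g i), sq_nonneg (g j)]

theorem integral_linear_mul (u v : ι → ℝ) :
    Integrable (fun g => (∑ i, g i * u i) * ∑ j, g j * v j) (gam ι) ∧
      ∫ g, (∑ i, g i * u i) * (∑ j, g j * v j) ∂gam ι = ∑ i, u i * v i := by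
  classical
  have hi : ∀ i j, Integrable (fun g : ι → ℝ => u i * v j * (g i * g j)) (gam ι) := fun i j =>
    (integrable_coord_mul i j).const_mul _
  have e : ∀ g : ι → ℝ, (∑ i, g i * u i) * (∑ j, g j * v j) =
      ∑ i, ∑ j, u i * v j * (g i * g j) := fun g => by
    rw [Finset.sum_mul_sum]
    exact Finset.sum_congr rfl fun i _ => Finset.sum_congr rfl fun j _ => by ring
  simp only [e]
  refine ⟨integrable_finsetSum _ fun i _ => integrable_finsetSum _ fun j _ => hi i j, ?_⟩
  rw [integral_finsetSum _ fun i _ => integrable_finsetSum _ fun j _ => hi i j]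
  refine Finset.sum_congr rfl fun i _ => ?_
  rw [integral_finsetSum _ fun j _ => hi i j]
  simp [integral_const_mul, integral_coord_mul]

theorem linear_moments (u : ι → ℝ) (hu : ∑ i, u i ^ 2 = 1) :
    Integrable (fun g => (∑ i, g i * u i) ^ 4) (gam ι) ∧
      ∫ g, (∑ i, g i * u i) ^ 4 ∂gam ι ≤ 100 := by
  set E : ℝ → (ι → ℝ) → ℝ := fun t g => Real.exp (∑ i, (t * u i) * g i) with hE
  have hb : ∀ g : ι → ℝ, (∑ i, g i * u i) ^ 4 ≤ 24 * (E 1 g + E (-1) g) := fun g => by
    have e : ∀ t : ℝ, E t g = Real.exp (t * ∑ i, g i * u i) := fun t => by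
      simp only [hE, Finset.mul_sum]
      congr 1
      exact Finset.sum_congr rfl fun i _ => by ring
    rw [e, e]
    set x := ∑ i, g i * u i
    have h := Real.pow_div_factorial_le_exp (x := |x|) (abs_nonneg x) 4
    rw [show ((Nat.factorial 4 : ℕ) : ℝ) = 24 by norm_num [Nat.factorial],
      div_le_iff₀ (by norm_num), pow_abs, abs_of_nonneg (show 0 ≤ x ^ 4 by positivity)] at h
    have : Real.exp |x| ≤ Real.exp (1 * x) + Real.exp (-1 * x) := by
      rcases abs_choice x with hc | hc <;> rw [hc, one_mul, neg_one_mul] <;>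
        linarith [Real.exp_pos x, Real.exp_pos (-x)]
    linarith
  have hi : ∀ t, Integrable (E t) (gam ι) := fun t => integrable_exp_linear _
  have hv : ∀ t : ℝ, t ^ 2 = 1 → ∫ g, E t g ∂gam ι ≤ 2 := fun t ht => by
    refine (integral_exp_linear _).trans_le ?_
    simp only [mul_pow, ← Finset.mul_sum, hu, ht, mul_one]
    have h := tilt_le_two 1
    simp only [tilt] at h
    norm_num at h ⊢
    linarith
  have hI : Integrable (fun g => (∑ i, g i * u i) ^ 4) (gam ι) :=
    (((hi 1).add (hi (-1))).const_mul 24).mono' (Continuous.aestronglyMeasurable (by fun_prop)) (ae_of_all _ fun g => by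
      rw [Real.norm_eq_abs, abs_of_nonneg (by positivity)]; exact hb g)
  refine ⟨hI, (integral_mono hI (((hi 1).add (hi (-1))).const_mul 24) hb).trans ?_⟩
  simp only [Pi.add_apply]
  rw [integral_const_mul, integral_add (hi 1) (hi (-1))]
  linarith [hv 1 (by norm_num), hv (-1) (by norm_num)]

/-- M5: `TaylorStmt`. -/
theorem _root_.Vale.Agent.P166.Haar2.taylor : TaylorStmt := by
  refine ⟨30000 * 300, ?_⟩
  intro X ι _ _ _ w c u hw h1 hc hu κ hκ
  obtain ⟨hκ0, hκ1⟩ := hκ
  set r := Real.sqrt κ with hr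
  have hr0 : 0 ≤ r := Real.sqrt_nonneg _
  have hr2 : r ^ 2 = κ := Real.sq_sqrt hκ0
  have hr1 : r ≤ 1 := by rw [hr]; exact Real.sqrt_le_one.2 hκ1
  have hcc : ∀ σ, c σ ^ 2 = 1 := fun σ => by rcases hc σ with h | h <;> simp [h]
  set Gf : X → (ι → ℝ) → ℝ := fun σ g => ∑ i, g i * u σ i with hGf
  have harg : ∀ σ (g : ι → ℝ), Real.exp (r * c σ * Gf σ g - κ * Gf σ g ^ 2 / 2) =
      tilt (r * c σ * Gf σ g) := fun σ g => by
    rw [tilt]
    congr 1
    rw [mul_pow, mul_pow, hcc, hr2]
    ring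
  set L : (ι → ℝ) → ℝ := fun g => ∑ σ, w σ * (r * c σ * Gf σ g) with hL
  set f : (ι → ℝ) → ℝ := fun g => Real.log (∑ σ, w σ * tilt (r * c σ * Gf σ g)) with hf
  set Rb : (ι → ℝ) → ℝ := fun g => ∑ σ, w σ * (r ^ 3 * (1 + 2 * Gf σ g ^ 4)) with hRb
  have hpt : ∀ g, |f g - L g + L g ^ 2 / 2| ≤ 30000 * Rb g := fun g => by
    refine (tilt_expansion w _ hw h1).trans (mul_le_mul_of_nonneg_left ?_ (by norm_num))
    refine Finset.sum_le_sum fun σ _ => mul_le_mul_of_nonneg_left ?_ (hw σ)
    set G := Gf σ g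
    have e : |r * c σ * G| = r * |G| := by
      rw [abs_mul, abs_mul, abs_of_nonneg hr0]
      rcases hc σ with h | h <;> simp [h]
    have e4 : (r * c σ * G) ^ 4 = r ^ 4 * G ^ 4 := by
      rw [mul_pow, mul_pow, show c σ ^ 4 = (c σ ^ 2) ^ 2 by ring, hcc]; ring
    rw [e, e4, mul_pow]
    have h3 : |G| ^ 3 ≤ 1 + G ^ 4 := by
      have := cube_mul_le G 1
      simp only [abs_one, mul_one, one_pow] at this
      linarith
    have h4 : r ^ 4 ≤ r ^ 3 := pow_le_pow_of_le_one hr0 hr1 (by norm_num)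
    nlinarith [mul_le_mul_of_nonneg_left h3 (pow_nonneg hr0 3),
      mul_le_mul_of_nonneg_right h4 (show 0 ≤ G ^ 4 by positivity)]
  have iG : ∀ σ, Integrable (Gf σ) (gam ι) := fun σ =>
    integrable_finsetSum _ fun i _ => (integrable_eval_gaussPi i).mul_const _
  have iL : Integrable L (gam ι) :=
    integrable_finsetSum _ fun σ _ => ((iG σ).const_mul _).const_mul _
  have eL : ∫ g, L g ∂gam ι = 0 := by
    simp only [hL]
    rw [integral_finsetSum _ fun σ _ => ((iG σ).const_mul _).const_mul _]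
    refine Finset.sum_eq_zero fun σ _ => ?_
    rw [integral_const_mul, integral_const_mul]
    have : ∫ g, Gf σ g ∂gam ι = 0 := by
      simp only [hGf]
      rw [integral_finsetSum _ fun i _ => (integrable_eval_gaussPi i).mul_const _]
      refine Finset.sum_eq_zero fun i _ => ?_
      rw [integral_mul_const]
      have := (measurePreserving_eval (fun _ : ι => gauss) i)
      rw [show ∫ g : ι → ℝ, g i ∂gam ι = 0 from
        (integral_map (μ := gam ι) (φ := Function.eval i) (measurable_pi_apply i).aemeasurable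
          (f := fun x : ℝ => x) (by fun_prop)).symm.trans (by rw [this.map_eq]; exact integral_gauss_id)]
      ring
    rw [this]
    ring
  have i2 : ∀ σ τ, Integrable (fun g => κ * (w σ * w τ * (c σ * c τ)) * (Gf σ g * Gf τ g)) (gam ι) :=
    fun σ τ => ((integral_linear_mul (u σ) (u τ)).1).const_mul _
  have e2 : ∀ g, L g ^ 2 = ∑ σ, ∑ τ, κ * (w σ * w τ * (c σ * c τ)) * (Gf σ g * Gf τ g) := fun g => by
    rw [sq, hL, Finset.sum_mul_sum]
    refine Finset.sum_congr rfl fun σ _ => Finset.sum_congr rfl fun τ _ => ?_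
    rw [← hr2]
    ring
  have iL2 : Integrable (fun g => L g ^ 2) (gam ι) := by
    simp only [e2]
    exact integrable_finsetSum _ fun σ _ => integrable_finsetSum _ fun τ _ => i2 σ τ
  have eL2 : ∫ g, L g ^ 2 ∂gam ι =
      κ * ∑ σ, ∑ τ, w σ * w τ * (c σ * c τ * ∑ i, u σ i * u τ i) := by
    simp only [e2, Finset.mul_sum]
    rw [integral_finsetSum _ fun σ _ => integrable_finsetSum _ fun τ _ => i2 σ τ]
    refine Finset.sum_congr rfl fun σ _ => ?_
    rw [integral_finsetSum _ fun τ _ => i2 σ τ]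
    refine Finset.sum_congr rfl fun τ _ => ?_
    rw [integral_const_mul, (integral_linear_mul (u σ) (u τ)).2, Finset.mul_sum]
    exact Finset.sum_congr rfl fun i _ => by ring
  have iR1 : ∀ σ, Integrable (fun g => w σ * (r ^ 3 * (1 + 2 * Gf σ g ^ 4))) (gam ι) := fun σ =>
    (((integrable_const 1).add ((linear_moments (u σ) (hu σ)).1.const_mul 2)).const_mul _).const_mul _
  have iR : Integrable Rb (gam ι) := integrable_finsetSum _ fun σ _ => iR1 σ
  have eR : ∫ g, Rb g ∂gam ι ≤ 300 * r ^ 3 := by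
    simp only [hRb]
    rw [integral_finsetSum _ fun σ _ => iR1 σ, show 300 * r ^ 3 = ∑ σ, w σ * (r ^ 3 * 300) by
      rw [← Finset.sum_mul, h1]; ring]
    refine Finset.sum_le_sum fun σ _ => ?_
    rw [integral_const_mul, integral_const_mul]
    refine mul_le_mul_of_nonneg_left (mul_le_mul_of_nonneg_left ?_ (by positivity)) (hw σ)
    obtain ⟨i4, h4⟩ := linear_moments (u σ) (hu σ)
    rw [integral_add (integrable_const _) (i4.const_mul 2), integral_const_mul]
    simp only [integral_const, probReal_univ, one_smul]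
    linarith
  have hfm : Measurable f := by
    simp only [hf, tilt, hGf]
    fun_prop
  have iF : Integrable (fun g => f g - L g + L g ^ 2 / 2) (gam ι) :=
    (iR.const_mul 30000).mono' ((hfm.sub (by fun_prop)).add (by fun_prop)).aestronglyMeasurable
      (ae_of_all _ hpt)
  have i_f : Integrable f (gam ι) := by
    refine ((iF.add iL).sub (iL2.div_const 2)).congr (ae_of_all _ fun g => ?_)
    simp only [Pi.add_apply, Pi.sub_apply]
    ring
  have i3 : Integrable (fun g => f g - L g) (gam ι) := i_f.sub iL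
  have key : |∫ g, (f g - L g + L g ^ 2 / 2) ∂gam ι| ≤ 30000 * (300 * r ^ 3) := by
    refine abs_integral_le_integral_abs.trans ((integral_mono iF.abs (iR.const_mul 30000) hpt).trans ?_)
    rw [integral_const_mul]
    exact mul_le_mul_of_nonneg_left eR (by norm_num)
  rw [integral_add i3 (iL2.div_const 2), integral_sub i_f iL, integral_div, eL, eL2] at key
  have ef : (∫ g, f g ∂gam ι) =
      ∫ g, Real.log (∑ σ, w σ * Real.exp (r * c σ * Gf σ g - κ * Gf σ g ^ 2 / 2)) ∂gam ι := by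
    simp only [hf, harg]
  rw [ef] at key
  simp only [hGf] at key
  rw [show r ^ 3 = κ * r by rw [← hr2]; ring] at key
  refine le_trans (le_of_eq ?_) (key.trans (le_of_eq ?_))
  · congr 1
    ring
  · ring

end Vale.Agent.P166.Haar2.M5
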